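import Mathlib
import Vale.Agent.P319.SC.Iface

/-! P319, block DEGT: from the doubling of the rank in characteristic two to the exponential lower
bound of the rank over the real numbers. -/

namespace Vale.Agent.P319.H676

open Vale.Agent.P319.SC Finset

/-- a valuation subring of the real numbers in which `2` is not invertible -/
theorem exists_val : ∃ B : ValuationSubring ℝ, (2 : ℝ) ∈ B.nonunits := by
  let A : Subring ℝ := (Int.castRingHom ℝ).range
  let two : A := ⟨2, ⟨2, by simp⟩⟩
  have hI : Ideal.span {two} ≠ ⊤ := by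
    intro h
    rw [Ideal.eq_top_iff_one, Ideal.mem_span_singleton'] at h
    obtain ⟨⟨_, ⟨z, rfl⟩⟩, hz⟩ := h
    have h1 : ((z : ℝ) * 2) = 1 := congrArg Subtype.val hz
    have h2 : z * 2 = 1 := by exact_mod_cast h1
    omega
  obtain ⟨B, -, h2⟩ := Ideal.image_subset_nonunits_valuationSubring _ hI
  exact ⟨B, h2 ⟨two, Ideal.subset_span rfl, rfl⟩⟩

section rank

variable {F K : Type} [Field F] [Field K] (O : ValuationSubring F) (φ : O →+* K)

/-- a family of elements of a field can be scaled to a family with values in the valuation ring with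
an element equal to one -/
theorem exists_scale {κ : Type*} [Finite κ] (g : κ → F) (i0 : κ) (h0 : g i0 ≠ 0) :
    ∃ (i1 : κ) (c : κ → O), g i1 ≠ 0 ∧ (∀ i, (c i : F) = (g i1)⁻¹ * g i) ∧ c i1 = 1 := by
  have : Nonempty κ := ⟨i0⟩
  obtain ⟨i1, hi1⟩ := Finite.exists_max fun i => O.valuation (g i)
  have h1 : g i1 ≠ 0 := by
    intro h
    have h2 := hi1 i0
    rw [h, map_zero, le_zero_iff, map_eq_zero] at h2
    exact h0 h2
  have h2 : ∀ i, (g i1)⁻¹ * g i ∈ O := by
    intro i
    rw [← O.valuation_le_one_iff, map_mul, map_inv₀]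
    have h3 : O.valuation (g i1) ≠ 0 := (Valuation.ne_zero_iff _).2 h1
    calc (O.valuation (g i1))⁻¹ * O.valuation (g i)
        ≤ (O.valuation (g i1))⁻¹ * O.valuation (g i1) := by
          gcongr
          exact hi1 i
      _ = 1 := inv_mul_cancel₀ h3
  exact ⟨i1, fun i => ⟨_, h2 i⟩, h1, fun i => rfl, Subtype.ext (inv_mul_cancel₀ h1)⟩

/-- the rank does not increase under reduction -/
theorem rank_map_le {V : Type} [Fintype V] (A : Matrix V V O) :
    (A.map φ).rank ≤ (A.map O.subtype).rank := by
  classical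
  obtain ⟨κ, a, ha, hs, hl⟩ := exists_linearIndependent' K (A.map φ).row
  have : Finite κ := Finite.of_injective a ha
  cases nonempty_fintype κ
  have e1 : (A.map φ).rank = Fintype.card κ := by
    rw [Matrix.rank_eq_finrank_span_row, ← hs]
    exact finrank_span_eq_card hl
  have h2 : LinearIndependent F ((A.map O.subtype).row ∘ a) := by
    rw [Fintype.linearIndependent_iff]
    intro g hg i0
    by_contra h0
    obtain ⟨i1, c, h1, hc, hc1⟩ := exists_scale O g i0 h0
    have h3 : ∀ j, ∑ i, c i * A (a i) j = 0 := by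
      intro j
      apply Subtype.ext
      have h4 := congrFun hg j
      simp only [Finset.sum_apply, Pi.smul_apply, Function.comp, Matrix.row, Matrix.map_apply,
        smul_eq_mul, Pi.zero_apply] at h4
      have h5 : ((∑ i, c i * A (a i) j : O) : F) = (g i1)⁻¹ * ∑ i, g i * (A (a i) j : F) := by
        rw [Finset.mul_sum, AddSubmonoidClass.coe_finsetSum]
        refine Finset.sum_congr rfl fun i _ => ?_
        rw [MulMemClass.coe_mul, hc]
        ring
      rw [h5]
      have h6 : ∑ i, g i * (A (a i) j : F) = 0 := h4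
      rw [h6, mul_zero]
      rfl
    have h7 : ∑ i, φ (c i) • ((A.map φ).row ∘ a) i = 0 := by
      funext j
      have h8 := congrArg φ (h3 j)
      rw [map_sum, map_zero] at h8
      simp only [map_mul] at h8
      rw [Finset.sum_apply]
      exact h8
    have h9 := Fintype.linearIndependent_iff.1 hl _ h7 i1
    rw [hc1, map_one] at h9
    exact one_ne_zero h9
  calc (A.map φ).rank = Fintype.card κ := e1
    _ = Module.finrank F (Submodule.span F (Set.range ((A.map O.subtype).row ∘ a))) :=
        (finrank_span_eq_card h2).symm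
    _ ≤ Module.finrank F (Submodule.span F (Set.range (A.map O.subtype).row)) :=
        Submodule.finrank_mono (Submodule.span_mono (Set.range_comp_subset_range _ _))
    _ = (A.map O.subtype).rank := (Matrix.rank_eq_finrank_span_row _).symm

end rank

/-- characteristic two: the rank is at least `2 ^ m` -/
theorem char_two (hD : DblStmt) (K : Type) [Field K] [IsAlgClosed K] [CharP K 2] :
    ∀ (m : ℕ) (V ι : Type) [Fintype V] [DecidableEq V] [DecidableEq ι]
      (𝒞 : Cfg V ι (m + 5)) (A : Matrix V V K), 𝒞.Inv2 A → 𝒞.Non A → A ≠ 0 → 2 ^ m ≤ A.rank := by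
  intro m
  induction m with
  | zero =>
    intro V ι _ _ _ 𝒞 A _ _ h
    rw [pow_zero, Nat.one_le_iff_ne_zero]
    intro h1
    apply h
    have h2 : LinearMap.range A.mulVecLin = ⊥ := Submodule.finrank_eq_zero.1 h1
    rw [LinearMap.range_eq_bot] at h2
    ext i j
    have h3 := congrFun (LinearMap.congr_fun h2 (Pi.single j 1)) i
    simpa using h3
  | succ m ih =>
    intro V ι _ _ _ 𝒞 A h1 h2 h3
    obtain ⟨x, B, hB1, hB2, hB3, hB⟩ := hD V ι (m + 5) 𝒞 (by omega) K A h1 h2 h3
    have := ih V ι (𝒞.fix x) B hB1 hB2 hB3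
    rw [pow_succ]
    omega

theorem deg_of_dbl : DblStmt → DegStmt := by
  intro hD V ι _ _ _ m 𝒞 A h1 h2 h3
  obtain ⟨O, h2O⟩ := exists_val
  let κ := IsLocalRing.ResidueField O
  let K := AlgebraicClosure κ
  let φ : O →+* K := (algebraMap κ K).comp (IsLocalRing.residue O)
  have hφ2 : φ 2 = 0 := by
    have h : IsLocalRing.residue O 2 = 0 := by
      rw [IsLocalRing.residue_eq_zero_iff]
      exact (ValuationSubring.coe_mem_nonunits_iff).1 h2O
    show (algebraMap κ K) (IsLocalRing.residue O 2) = 0
    rw [h, map_zero]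
  have : CharP K 2 := by
    rw [CharP.charP_iff_prime_eq_zero Nat.prime_two]
    have : φ 2 = ((2 : ℕ) : K) := by
      rw [map_ofNat]; rfl
    rw [← this, hφ2]
  have hne : ∃ p : V × V, A p.1 p.2 ≠ 0 := by
    by_contra hcon
    push Not at hcon
    exact h3 (by ext a b; exact hcon (a, b))
  obtain ⟨p0, hp0⟩ := hne
  obtain ⟨p1, c, hp1, hc, hc1⟩ := exists_scale O (fun p : V × V => A p.1 p.2) p0 hp0
  let A' : Matrix V V O := fun a b => c (a, b)
  have hA' : ∀ a b, (A' a b : ℝ) = (A p1.1 p1.2)⁻¹ * A a b := fun a b => hc (a, b)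
  have e : A'.map O.subtype = (A p1.1 p1.2)⁻¹ • A := by
    ext a b
    exact hA' a b
  have hr : (A'.map O.subtype).rank ≤ A.rank := by
    rw [e]
    calc ((A p1.1 p1.2)⁻¹ • A).rank = (A * (A p1.1 p1.2)⁻¹ • (1 : Matrix V V ℝ)).rank := by simp
      _ ≤ A.rank := Matrix.rank_mul_le_left _ _
  have hi : 𝒞.Inv2 (A'.map φ) := by
    intro a b a' b' hab
    have : A' a b = A' a' b' := by
      apply Subtype.ext
      rw [hA', hA', h1 a b a' b' hab]
    simp only [Matrix.map_apply, this]
  have hn : 𝒞.Non (A'.map φ) := by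
    intro a ρ
    simp only [Matrix.map_apply]
    rw [← map_sum]
    have : ∑ b ∈ 𝒞.cls ρ, A' a b = 0 := by
      apply Subtype.ext
      rw [AddSubmonoidClass.coe_finsetSum]
      simp only [hA']
      rw [← Finset.mul_sum, h2 a ρ, mul_zero]
      rfl
    rw [this, map_zero]
  have hz : A'.map φ ≠ 0 := by
    intro h
    have h4 := congrFun (congrFun h p1.1) p1.2
    have h5 : A' p1.1 p1.2 = 1 := hc1
    rw [Matrix.map_apply, h5, map_one] at h4
    exact one_ne_zero h4
  exact ((char_two hD K m V ι 𝒞 _ hi hn hz).trans (rank_map_le O φ A')).trans hr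

end Vale.Agent.P319.H676
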